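import Vale.Agent.P038.H142.Core

/-!
# The exchange inequality for an optimal shifted-legal pair
-/

namespace Vale.Agent.P038.H142

set_option linter.unusedSectionVars false

open Finset

variable {V : Type*} [Fintype V] [DecidableEq V]

/-- shifted-legal pairs of families. -/
structure SL (N P Q : V → Finset V) : Prop where
  hP : ∀ a, N a ⊆ P a
  hQ : ∀ b, N b ⊆ Q b
  leg : ∀ a v, v ∈ P a → a ∈ Q v → a = v

/-- cost of a pair. -/
def cost (N P Q : V → Finset V) : ℤ := (∑ a, cc N (P a)) + ∑ b, cc N (Q b)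

/-- the range allowed for the rows of the first family. -/
def rg (Q : V → Finset V) (a : V) : Finset V := univ.filter fun v => v = a ∨ a ∉ Q v

theorem mem_rg {Q : V → Finset V} {a v : V} : v ∈ rg Q a ↔ v = a ∨ a ∉ Q v := by
  simp [rg]

variable {N P Q : V → Finset V}

theorem SL.symm (h : SL N P Q) : SL N Q P :=
  ⟨h.hQ, h.hP, fun a v h1 h2 => (h.leg v a h2 h1).symm⟩

theorem SL.sub_rg (h : SL N P Q) (a : V) : P a ⊆ rg Q a := by
  intro v hv
  rw [mem_rg]
  by_cases hq : a ∈ Q v
  · exact Or.inl (h.leg a v hv hq).symm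
  · exact Or.inr hq

theorem cost_symm : cost N P Q = cost N Q P := by
  unfold cost
  ring

/-- optimality of the pair gives optimality of each row. -/
theorem row_opt (h : SL N P Q) (hopt : ∀ P' Q', SL N P' Q' → cost N P Q ≤ cost N P' Q')
    (a : V) (U : Finset V) (h1 : P a ⊆ U) (h2 : U ⊆ rg Q a) : cc N (P a) ≤ cc N U := by
  have hsl : SL N (Function.update P a U) Q := by
    refine ⟨?_, h.hQ, ?_⟩
    · intro b
      by_cases hb : b = a
      · subst hb
        rw [Function.update_self]
        exact (h.hP b).trans h1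
      · rw [Function.update_of_ne hb]
        exact h.hP b
    · intro b v hv hb'
      by_cases hb : b = a
      · subst hb
        rw [Function.update_self] at hv
        rcases mem_rg.1 (h2 hv) with h3 | h3
        · exact h3.symm
        · exact absurd hb' h3
      · rw [Function.update_of_ne hb] at hv
        exact h.leg b v hv hb'
  have h3 := hopt _ _ hsl
  unfold cost at h3
  have h4 : ∑ b, cc N (Function.update P a U b) - ∑ b, cc N (P b) = cc N U - cc N (P a) := by
    rw [← Finset.sum_sub_distrib]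
    rw [Finset.sum_eq_single a]
    · rw [Function.update_self]
    · intro b _ hb
      rw [Function.update_of_ne hb]
      ring
    · intro h
      exact absurd (mem_univ a) h
  linarith

/-- sums of sizes as double sums. -/
theorem card_sum (F : V → Finset V) :
    (∑ a, ((F a).card : ℤ)) = ∑ a, ∑ b, (if b ∈ F a then (1 : ℤ) else 0) := by
  refine Finset.sum_congr rfl fun a _ => ?_
  simp

theorem card_sum' (F : V → Finset V) :
    (∑ a, ((F a).card : ℤ)) = ∑ b, ∑ a, (if b ∈ F a then (1 : ℤ) else 0) := by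
  rw [card_sum, Finset.sum_comm]

theorem diag_sum : ∑ a : V, ∑ b : V, ((1 : ℤ) + (if a = b then 1 else 0)) =
    (Fintype.card V : ℤ) ^ 2 + Fintype.card V := by
  simp [Finset.sum_add_distrib]
  ring

/-- if the cells of the two relations are disjoint outside the diagonal. -/
theorem pair_le (F G : V → Finset V) (h : ∀ a b, b ∈ F a → a ∈ G b → a = b) :
    (∑ a, ((F a).card : ℤ)) + ∑ b, ((G b).card : ℤ) ≤
      (Fintype.card V : ℤ) ^ 2 + Fintype.card V := by
  rw [card_sum, card_sum' G, ← diag_sum (V := V), ← Finset.sum_add_distrib]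
  refine Finset.sum_le_sum fun a _ => ?_
  rw [← Finset.sum_add_distrib]
  refine Finset.sum_le_sum fun b _ => ?_
  by_cases h1 : b ∈ F a
  · by_cases h2 : a ∈ G b
    · have e := h a b h1 h2
      subst e
      simp [h1, h2]
    · simp only [h1, h2, if_true, if_false]
      split_ifs <;> simp
  · simp only [h1, if_false]
    split_ifs <;> simp

theorem pair_ge (F G : V → Finset V) (h : ∀ a b, b ∉ F a → a ∈ G b)
    (h' : ∀ a, a ∈ F a ∧ a ∈ G a) :
    (Fintype.card V : ℤ) ^ 2 + Fintype.card V ≤
      (∑ a, ((F a).card : ℤ)) + ∑ b, ((G b).card : ℤ) := by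
  rw [card_sum, card_sum' G, ← diag_sum (V := V), ← Finset.sum_add_distrib]
  refine Finset.sum_le_sum fun a _ => ?_
  rw [← Finset.sum_add_distrib]
  refine Finset.sum_le_sum fun b _ => ?_
  by_cases hab : a = b
  · subst hab
    simp [(h' a).1, (h' a).2]
  · simp only [hab, if_false]
    by_cases h1 : b ∈ F a
    · simp only [h1, if_true]
      split_ifs <;> simp
    · simp [h1, h a b h1]

/-- in a shifted-legal pair the range of a row misses the open in-neighbours. -/
theorem not_rg (h : SL N P Q) {a x : V} (hx : a ∈ N x) (hne : x ≠ a) : x ∉ rg Q a := by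
  rw [mem_rg]
  rintro (h1 | h1)
  · exact hne h1
  · exact h1 (h.hQ x hx)

/-- **thresholds**: one level. `Pj` is a family between `P` and its range, `Mj` a family with
`Mj a ⊆ Pj a'` for all closed in-neighbours `a'` of `a`. -/
theorem level (hN : ∀ v, v ∈ N v) (h : SL N P Q)
    (hopt : ∀ P' Q', SL N P' Q' → cost N P Q ≤ cost N P' Q')
    (Pj Mj : V → Finset V) (hP1 : ∀ a, P a ⊆ Pj a) (hP2 : ∀ a, Pj a ⊆ rg Q a)
    (hM : ∀ a a', a ∈ N a' → Mj a ⊆ Pj a') :
    ∑ b, cc N (meet N Q b) ≤
      (∑ a, ((nb N (Pj a)).card : ℤ)) - ∑ a, ((nb N (Mj a)).card : ℤ) := by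
  classical
  set U : V → Finset V := fun b => univ.filter fun a => ∀ b', b ∈ N b' → a = b' ∨ b' ∉ Pj a
    with hU
  have memU : ∀ a b, a ∈ U b ↔ ∀ b', b ∈ N b' → a = b' ∨ b' ∉ Pj a := by
    intro a b
    simp [hU]
  have hopt' : ∀ P' Q', SL N P' Q' → cost N Q P ≤ cost N P' Q' := by
    intro P' Q' h'
    rw [cost_symm (P := Q)]
    exact hopt P' Q' h'
  -- each column
  have h1 : ∀ b, cc N (meet N Q b) ≤ cc N (U b) := by
    intro b
    refine meet_opt (R := rg P) (row_opt h.symm hopt') h.symm.sub_rg b (U b) ?_ ?_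
    · intro a ha
      rw [memU]
      intro b' hb'
      by_cases hb : b' ∈ Pj a
      · rcases mem_rg.1 (hP2 a hb) with h2 | h2
        · exact Or.inl h2.symm
        · exact absurd (mem_meet.1 ha b' hb') h2
      · exact Or.inr hb
    · intro a ha
      rw [mem_meet]
      intro b' hb'
      rw [mem_rg]
      rcases (memU a b).1 ha b' hb' with h2 | h2
      · exact Or.inl h2
      · exact Or.inr fun h3 => h2 (hP1 a h3)
  have h2 : ∑ b, cc N (meet N Q b) ≤ ∑ b, cc N (U b) := Finset.sum_le_sum fun b _ => h1 b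
  have h3 : (∑ a, ((nb N (Mj a)).card : ℤ)) + ∑ b, ((nb N (U b)).card : ℤ) ≤
      (Fintype.card V : ℤ) ^ 2 + Fintype.card V := by
    refine pair_le _ _ ?_
    intro a b hb ha
    by_contra hab
    obtain ⟨b', hb', hbb'⟩ := mem_nb.1 hb
    obtain ⟨a', ha', haa'⟩ := mem_nb.1 ha
    have h4 := (memU a' b).1 ha' b' hbb'
    have h5 : b' ∈ Pj a' := hM a a' haa' hb'
    have h6 : a' = b' := by
      rcases h4 with h4 | h4
      · exact h4
      · exact absurd h5 h4
    subst h6
    have h7 : a' ∈ rg Q a := hP2 a (hM a a (hN a) hb')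
    by_cases h8 : a' = a
    · subst h8
      rcases (memU a' b).1 ha' b (hN b) with h9 | h9
      · exact hab h9
      · exact h9 (hP1 a' (h.hP a' hbb'))
    · exact not_rg h haa' h8 h7
  have h4 : (Fintype.card V : ℤ) ^ 2 + Fintype.card V ≤
      (∑ a, ((nb N (Pj a)).card : ℤ)) + ∑ b, ((U b).card : ℤ) := by
    refine pair_ge _ _ ?_ ?_
    · intro a b hb
      rw [memU]
      intro b' hb'
      refine Or.inr fun h5 => hb ?_
      exact mem_nb.2 ⟨b', h5, hb'⟩
    · intro a
      refine ⟨subset_nb hN _ (hP1 a (h.hP a (hN a))), ?_⟩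
      rw [memU]
      intro b' hb'
      by_cases h5 : a = b'
      · exact Or.inl h5
      · exact Or.inr fun h6 => not_rg h hb' (fun h7 => h5 h7.symm) (hP2 a h6)
  have h5 : ∑ b, cc N (U b) = ∑ b, ((nb N (U b)).card : ℤ) - ∑ b, ((U b).card : ℤ) := by
    unfold cc
    rw [Finset.sum_sub_distrib]
  linarith

end Vale.Agent.P038.H142
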