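import Vale.Agent.P038.Defs

/-!
# Closed neighbourhoods, submodularity, the exchange inequality
-/

namespace Vale.Agent.P038.H142

set_option linter.unusedSectionVars false

open Finset

variable {V : Type*} [Fintype V] [DecidableEq V]

/-- closed out-neighbourhood of a set, `N v` being the closed out-neighbourhood of `v`. -/
def nb (N : V → Finset V) (S : Finset V) : Finset V := S.biUnion N

/-- size of the out-boundary. -/
def cc (N : V → Finset V) (S : Finset V) : ℤ := ((nb N S).card : ℤ) - (S.card : ℤ)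

variable {N : V → Finset V}

theorem mem_nb {S : Finset V} {v : V} : v ∈ nb N S ↔ ∃ x ∈ S, v ∈ N x := by
  simp [nb]

theorem nb_mono {S T : Finset V} (h : S ⊆ T) : nb N S ⊆ nb N T := by
  intro v hv
  rw [mem_nb] at hv ⊢
  obtain ⟨x, hx, hv⟩ := hv
  exact ⟨x, h hx, hv⟩

theorem subset_nb (hN : ∀ v, v ∈ N v) (S : Finset V) : S ⊆ nb N S := by
  intro v hv
  rw [mem_nb]
  exact ⟨v, hv, hN v⟩

theorem nb_union (S T : Finset V) : nb N (S ∪ T) = nb N S ∪ nb N T := by
  ext v
  simp only [mem_nb, mem_union]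
  constructor
  · rintro ⟨x, hx | hx, h⟩
    · exact Or.inl ⟨x, hx, h⟩
    · exact Or.inr ⟨x, hx, h⟩
  · rintro (⟨x, hx, h⟩ | ⟨x, hx, h⟩)
    · exact ⟨x, Or.inl hx, h⟩
    · exact ⟨x, Or.inr hx, h⟩

theorem nb_inter_subset (S T : Finset V) : nb N (S ∩ T) ⊆ nb N S ∩ nb N T :=
  subset_inter (nb_mono inter_subset_left) (nb_mono inter_subset_right)

theorem card_nb_submod (S T : Finset V) :
    ((nb N (S ∪ T)).card : ℤ) + (nb N (S ∩ T)).card ≤ (nb N S).card + (nb N T).card := by
  have h1 : (nb N (S ∪ T)).card + (nb N (S ∩ T)).card ≤ (nb N S).card + (nb N T).card := by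
    rw [nb_union, ← card_union_add_card_inter (nb N S) (nb N T)]
    exact Nat.add_le_add_left (card_le_card (nb_inter_subset S T)) _
  exact_mod_cast h1

theorem card_modular (S T : Finset V) :
    ((S ∪ T).card : ℤ) + (S ∩ T).card = S.card + T.card := by
  exact_mod_cast card_union_add_card_inter S T

theorem cc_submod (S T : Finset V) : cc N (S ∪ T) + cc N (S ∩ T) ≤ cc N S + cc N T := by
  have h1 := card_nb_submod (N := N) S T
  have h2 := card_modular S T
  unfold cc
  linarith

theorem cc_le (S : Finset V) : cc N S ≤ Fintype.card V := by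
  unfold cc
  have h : ((nb N S).card : ℤ) ≤ Fintype.card V := by
    exact_mod_cast card_le_univ (nb N S)
  have h2 : (0 : ℤ) ≤ S.card := by positivity
  linarith

/-- intersection of the rows of `F` over the closed in-neighbourhood of `a`. -/
def meet (N : V → Finset V) (F : V → Finset V) (a : V) : Finset V :=
  univ.filter fun x => ∀ a', a ∈ N a' → x ∈ F a'

theorem mem_meet {F : V → Finset V} {a x : V} : x ∈ meet N F a ↔ ∀ a', a ∈ N a' → x ∈ F a' := by
  simp [meet]

theorem cut_step {P R : V → Finset V}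
    (hopt : ∀ a U, P a ⊆ U → U ⊆ R a → cc N (P a) ≤ cc N U) (hPR : ∀ a, P a ⊆ R a)
    {a : V} {W : Finset V} (hW : W ⊆ R a) : cc N (W ∩ P a) ≤ cc N W := by
  have h1 := cc_submod (N := N) W (P a)
  have h2 := hopt a (W ∪ P a) subset_union_right (union_subset hW (hPR a))
  linarith

theorem cut_steps {P R : V → Finset V}
    (hopt : ∀ a U, P a ⊆ U → U ⊆ R a → cc N (P a) ≤ cc N U) (hPR : ∀ a, P a ⊆ R a)
    (W : Finset V) (s : Finset V) :
    (∀ a ∈ s, W ⊆ R a) → cc N (W.filter fun x => ∀ a ∈ s, x ∈ P a) ≤ cc N W := by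
  induction s using Finset.induction_on with
  | empty => intro _; simp
  | insert a s ha ih =>
    intro h
    have h1 := ih (fun b hb => h b (mem_insert_of_mem hb))
    have h2 : (W.filter fun x => ∀ b ∈ insert a s, x ∈ P b) =
        (W.filter fun x => ∀ b ∈ s, x ∈ P b) ∩ P a := by
      ext x
      simp only [mem_filter, mem_inter, mem_insert]
      constructor
      · rintro ⟨h1, h2⟩
        exact ⟨⟨h1, fun b hb => h2 b (Or.inr hb)⟩, h2 a (Or.inl rfl)⟩
      · rintro ⟨⟨h1, h2⟩, h3⟩
        refine ⟨h1, ?_⟩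
        rintro b (rfl | hb)
        · exact h3
        · exact h2 b hb
    rw [h2]
    refine le_trans (cut_step hopt hPR ?_) h1
    exact (filter_subset _ _).trans (h a (mem_insert_self a s))

theorem meet_opt {P R : V → Finset V}
    (hopt : ∀ a U, P a ⊆ U → U ⊆ R a → cc N (P a) ≤ cc N U) (hPR : ∀ a, P a ⊆ R a)
    (a : V) (U : Finset V) (h1 : meet N P a ⊆ U) (h2 : U ⊆ meet N R a) :
    cc N (meet N P a) ≤ cc N U := by
  have h := cut_steps hopt hPR U (univ.filter fun a' => a ∈ N a') (by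
    intro a' ha' x hx
    exact (mem_meet.1 (h2 hx)) a' (by simpa using ha'))
  have h3 : (U.filter fun x => ∀ a' ∈ (univ.filter fun a' => a ∈ N a'), x ∈ P a') =
      meet N P a := by
    ext x
    simp only [mem_filter, mem_univ, true_and, mem_meet]
    constructor
    · rintro ⟨_, h⟩
      exact h
    · intro h
      exact ⟨h1 (mem_meet.2 h), h⟩
  rwa [h3] at h

/-- the parametric objective. -/
def gg (N : V → Finset V) (K k : ℕ) (S : Finset V) : ℤ :=
  (k : ℤ) * (nb N S).card - (K : ℤ) * S.card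

theorem exists_gg_min (N : V → Finset V) (K k : ℕ) {A B : Finset V} (h : A ⊆ B) :
    ∃ U, A ⊆ U ∧ U ⊆ B ∧ ∀ U', A ⊆ U' → U' ⊆ B → gg N K k U ≤ gg N K k U' := by
  obtain ⟨U, hU, hmin⟩ := Finset.exists_min_image
    (univ.filter fun U : Finset V => A ⊆ U ∧ U ⊆ B) (gg N K k)
    ⟨A, by simpa using h⟩
  rw [mem_filter] at hU
  exact ⟨U, hU.2.1, hU.2.2, fun U' h1 h2 => hmin U' (by simpa using ⟨h1, h2⟩)⟩

theorem gg_mono_param {K k k' : ℕ} (hK : 0 < K) (hk : k < k') {U U' : Finset V}
    (h1 : gg N K k U' ≤ gg N K k (U ∪ U')) (h2 : gg N K k' U ≤ gg N K k' (U ∩ U')) : U ⊆ U' := by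
  unfold gg at h1 h2
  have hs := card_nb_submod (N := N) U U'
  have hm := card_modular U U'
  have hd : ((nb N (U ∩ U')).card : ℤ) ≤ (nb N U).card := by
    exact_mod_cast card_le_card (nb_mono inter_subset_left)
  have he : ((U ∩ U').card : ℤ) ≤ U.card := by
    exact_mod_cast card_le_card inter_subset_left
  set δ : ℤ := (nb N U).card - (nb N (U ∩ U')).card with hδ
  set d : ℤ := (U.card : ℤ) - (U ∩ U').card with hdd
  have hδ0 : 0 ≤ δ := by linarith
  have hd0 : 0 ≤ d := by linarith
  have hk0 : (0 : ℤ) ≤ k := by positivity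
  have hK0 : (0 : ℤ) < K := by exact_mod_cast hK
  have hkk : (k : ℤ) + 1 ≤ k' := by exact_mod_cast hk
  have e1 : (K : ℤ) * d ≤ k * δ := by
    have e2 : ((nb N (U ∪ U')).card : ℤ) - (nb N U').card ≤ δ := by linarith
    have e3 : (k : ℤ) * (((nb N (U ∪ U')).card : ℤ) - (nb N U').card) ≤ k * δ :=
      mul_le_mul_of_nonneg_left e2 hk0
    have e4 : ((U ∪ U').card : ℤ) - U'.card = d := by linarith
    have e5 : (K : ℤ) * d = K * (U ∪ U').card - K * U'.card := by rw [← e4]; ring
    nlinarith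
  have e6 : (k' : ℤ) * δ ≤ K * d := by
    have : (k' : ℤ) * δ = k' * (nb N U).card - k' * (nb N (U ∩ U')).card := by rw [hδ]; ring
    have e7 : (K : ℤ) * d = K * U.card - K * (U ∩ U').card := by rw [hdd]; ring
    linarith
  have e8 : δ ≤ 0 := by nlinarith
  have e9 : δ = 0 := le_antisymm e8 hδ0
  rw [e9, mul_zero] at e1
  have e10 : d ≤ 0 := by nlinarith
  have e11 : U.card ≤ (U ∩ U').card := by
    have : (U.card : ℤ) ≤ (U ∩ U').card := by linarith
    exact_mod_cast this
  have e12 : U ∩ U' = U := eq_of_subset_of_card_le inter_subset_left e11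
  rw [← e12]
  exact inter_subset_right

end Vale.Agent.P038.H142
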