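import Vale.Agent.P038.H142.Core

/-!
# Counterexamples with the fewest arcs
-/

namespace Vale.Agent.P038.H142

set_option linter.unusedSectionVars false

open Finset

variable {V : Type*} [Fintype V] [DecidableEq V]

/-- closed out-neighbourhoods of an oriented graph. -/
structure Ori (N : V → Finset V) : Prop where
  refl : ∀ v, v ∈ N v
  anti : ∀ u v, v ∈ N u → u ∈ N v → u = v

/-- every vertex has a smaller second neighbourhood. -/
def CE (N : V → Finset V) : Prop :=
  ∀ v, (nb N ((N v).erase v)).card < 2 * ((N v).erase v).card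

variable {N : V → Finset V}

/-- In a counterexample with the fewest arcs the out-boundary of every set shrinks. -/
theorem growth (hO : Ori N) (hC : CE N)
    (hmin : ∀ N' : V → Finset V, Ori N' → CE N' → ∑ v, (N v).card ≤ ∑ v, (N' v).card)
    (S : Finset V) (hS : nb N S ≠ S) : cc N (nb N S) < cc N S := by
  classical
  by_contra hcon
  push Not at hcon
  set L : Finset V := nb N S \ S with hL
  have hSn : S ⊆ nb N S := subset_nb hO.refl S
  have hLne : L.Nonempty := by
    rw [hL, Finset.sdiff_nonempty]
    intro h
    exact hS (subset_antisymm h hSn)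
  -- `d`
  set d : Finset V → ℤ := fun T => ((nb N T \ S).card : ℤ) - 2 * T.card with hd
  have hdL : 0 ≤ d L := by
    have h1 : nb N (nb N S) \ S = nb N L \ S := by
      have h2 : nb N S = S ∪ L := by
        rw [hL, Finset.union_sdiff_of_subset hSn]
      rw [h2, nb_union, h2]
      ext x
      simp only [mem_sdiff, mem_union]
      constructor
      · rintro ⟨(h3 | h3) | h3, h4⟩
        · exact absurd h3 h4
        · exact ⟨subset_nb hO.refl L h3, h4⟩
        · exact ⟨h3, h4⟩
      · rintro ⟨h3, h4⟩
        exact ⟨Or.inr h3, h4⟩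
    have h3 : ((nb N (nb N S) \ S).card : ℤ) = (nb N (nb N S)).card - S.card := by
      rw [Finset.card_sdiff_of_subset (hSn.trans (subset_nb hO.refl _))]
      have := card_le_card (hSn.trans (subset_nb hO.refl (nb N S)))
      omega
    have h4 : (L.card : ℤ) = (nb N S).card - S.card := by
      rw [hL, Finset.card_sdiff_of_subset hSn]
      have := card_le_card hSn
      omega
    have h5 : d L = ((nb N L \ S).card : ℤ) - 2 * L.card := rfl
    rw [h5, ← h1, h3]
    unfold cc at hcon
    linarith
  have hd0 : d ∅ = 0 := by
    simp [hd, nb]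
  obtain ⟨T, hT, hTmin⟩ := Finset.exists_min_image L.ssubsets d
    ⟨∅, by simpa using Finset.ssubset_iff_subset_ne.2 ⟨empty_subset _, hLne.ne_empty.symm⟩⟩
  rw [Finset.mem_ssubsets] at hT
  have hTle : ∀ D, D ⊆ L → d T ≤ d D := by
    intro D hD
    by_cases h1 : D = L
    · rw [h1]
      refine le_trans ?_ hdL
      rw [← hd0]
      exact hTmin ∅ (by
        rw [Finset.mem_ssubsets]
        exact Finset.ssubset_iff_subset_ne.2 ⟨empty_subset _, hLne.ne_empty.symm⟩)
    · exact hTmin D (by
        rw [Finset.mem_ssubsets]
        exact Finset.ssubset_iff_subset_ne.2 ⟨hD, h1⟩)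
  have hTS : Disjoint T S := by
    rw [Finset.disjoint_left]
    intro x hx
    have := hT.1 hx
    rw [hL, mem_sdiff] at this
    exact this.2
  -- the gain
  have hgain : ∀ D, D ⊆ L → Disjoint D T → 2 * D.card ≤ (nb N D \ (nb N T ∪ S)).card := by
    intro D hD hDT
    have h1 := hTle (T ∪ D) (union_subset hT.1 hD)
    have h2 : nb N (T ∪ D) \ S = (nb N T \ S) ∪ (nb N D \ (nb N T ∪ S)) := by
      rw [nb_union]
      ext x
      simp only [mem_sdiff, mem_union]
      tauto
    have h3 : Disjoint (nb N T \ S) (nb N D \ (nb N T ∪ S)) := by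
      rw [Finset.disjoint_left]
      intro x hx hx'
      rw [mem_sdiff] at hx hx'
      exact hx'.2 (mem_union_left _ hx.1)
    have h4 : (nb N (T ∪ D) \ S).card = (nb N T \ S).card + (nb N D \ (nb N T ∪ S)).card := by
      rw [h2, card_union_of_disjoint h3]
    have h5 : (T ∪ D).card = T.card + D.card := card_union_of_disjoint hDT.symm
    have h6 : d (T ∪ D) = ((nb N (T ∪ D) \ S).card : ℤ) - 2 * (T ∪ D).card := rfl
    have h7 : d T = ((nb N T \ S).card : ℤ) - 2 * T.card := rfl
    rw [h6, h7, h4, h5] at h1
    push_cast at h1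
    have h8 : (2 : ℤ) * D.card ≤ (nb N D \ (nb N T ∪ S)).card := by linarith
    exact_mod_cast h8
  -- the smaller graph
  set N' : V → Finset V := fun y => if y ∈ S then N y ∩ (S ∪ T) else N y with hN'
  have hN'in : ∀ y, y ∈ S → N' y = N y ∩ (S ∪ T) := fun y hy => by simp [hN', hy]
  have hN'out : ∀ y, y ∉ S → N' y = N y := fun y hy => by simp [hN', hy]
  have hsub : ∀ y, N' y ⊆ N y := by
    intro y
    by_cases hy : y ∈ S
    · rw [hN'in y hy]
      exact inter_subset_left
    · rw [hN'out y hy]
  have hO' : Ori N' := by
    refine ⟨?_, fun u v h1 h2 => hO.anti u v (hsub _ h1) (hsub _ h2)⟩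
    intro v
    by_cases hv : v ∈ S
    · rw [hN'in v hv, mem_inter]
      exact ⟨hO.refl v, mem_union_left _ hv⟩
    · rw [hN'out v hv]
      exact hO.refl v
  have hnb' : ∀ Z, nb N' Z ⊆ nb N Z := by
    intro Z x hx
    obtain ⟨z, hz, hxz⟩ := mem_nb.1 hx
    exact mem_nb.2 ⟨z, hz, hsub z hxz⟩
  have hC' : CE N' := by
    intro y
    have hCy := hC y
    by_cases hy : y ∈ S
    · set O' : Finset V := (N' y).erase y with hO'def
      set O : Finset V := (N y).erase y with hOdef
      set D : Finset V := N y \ (S ∪ T) with hDdef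
      have hDL : D ⊆ L := by
        intro x hx
        rw [hDdef, mem_sdiff] at hx
        rw [hL, mem_sdiff]
        exact ⟨mem_nb.2 ⟨y, hy, hx.1⟩, fun h => hx.2 (mem_union_left _ h)⟩
      have hDT : Disjoint D T := by
        rw [Finset.disjoint_left]
        intro x hx hxT
        rw [hDdef, mem_sdiff] at hx
        exact hx.2 (mem_union_right _ hxT)
      have hg := hgain D hDL hDT
      have hOD : O.card = O'.card + D.card := by
        have h1 : O = O' ∪ D := by
          ext x
          simp only [hOdef, hO'def, hDdef, hN'in y hy, mem_erase, mem_union, mem_inter, mem_sdiff]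
          constructor
          · rintro ⟨h1, h2⟩
            by_cases h3 : x ∈ S ∨ x ∈ T
            · exact Or.inl ⟨h1, h2, h3⟩
            · exact Or.inr ⟨h2, h3⟩
          · rintro (⟨h1, h2, -⟩ | ⟨h1, h2⟩)
            · exact ⟨h1, h2⟩
            · refine ⟨?_, h1⟩
              rintro rfl
              exact h2 (Or.inl hy)
        have h2 : Disjoint O' D := by
          rw [Finset.disjoint_left]
          intro x hx hx'
          rw [hO'def, mem_erase, hN'in y hy, mem_inter] at hx
          rw [hDdef, mem_sdiff] at hx'
          exact hx'.2 hx.2.2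
        rw [h1, card_union_of_disjoint h2]
      have hE : (nb N' O').card + (nb N D \ (nb N T ∪ S)).card ≤ (nb N O).card := by
        have h1 : Disjoint (nb N' O') (nb N D \ (nb N T ∪ S)) := by
          rw [Finset.disjoint_left]
          intro x hx hx'
          rw [mem_sdiff] at hx'
          refine hx'.2 ?_
          obtain ⟨z, hz, hxz⟩ := mem_nb.1 hx
          rw [hO'def, mem_erase, hN'in y hy, mem_inter] at hz
          by_cases hzS : z ∈ S
          · rw [hN'in z hzS, mem_inter, mem_union] at hxz
            rcases hxz.2 with h2 | h2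
            · exact mem_union_right _ h2
            · exact mem_union_left _ (subset_nb hO.refl T h2)
          · have hzT : z ∈ T := by
              rcases mem_union.1 hz.2.2 with h2 | h2
              · exact absurd h2 hzS
              · exact h2
            exact mem_union_left _ (mem_nb.2 ⟨z, hzT, hsub z hxz⟩)
        rw [← card_union_of_disjoint h1]
        refine card_le_card (union_subset ?_ ?_)
        · refine (hnb' O').trans (nb_mono ?_)
          intro x hx
          rw [hO'def, mem_erase] at hx
          rw [hOdef, mem_erase]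
          exact ⟨hx.1, hsub y hx.2⟩
        · intro x hx
          rw [mem_sdiff] at hx
          refine nb_mono ?_ hx.1
          intro z hz
          rw [hDdef, mem_sdiff] at hz
          rw [hOdef, mem_erase]
          refine ⟨?_, hz.1⟩
          rintro rfl
          exact hz.2 (mem_union_left _ hy)
      omega
    · rw [hN'out y hy]
      exact lt_of_le_of_lt (card_le_card (hnb' _)) hCy
  -- fewer arcs
  have hlt : ∑ v, (N' v).card < ∑ v, (N v).card := by
    obtain ⟨l, hlL, hlT⟩ := Finset.exists_of_ssubset hT
    have hlL' := hlL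
    rw [hL, mem_sdiff] at hlL'
    obtain ⟨y, hy, hly⟩ := mem_nb.1 hlL'.1
    refine Finset.sum_lt_sum (fun v _ => card_le_card (hsub v)) ⟨y, mem_univ y, ?_⟩
    refine card_lt_card (Finset.ssubset_iff_subset_ne.2 ⟨hsub y, ?_⟩)
    intro h
    rw [← h, hN'in y hy, mem_inter, mem_union] at hly
    rcases hly.2 with h1 | h1
    · exact hlL'.2 h1
    · exact hlT h1
  exact absurd (hmin N' hO' hC') (not_le.2 hlt)

end Vale.Agent.P038.H142
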