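import Vale.Agent.P038.H142.Sum
import Vale.Agent.P038.H142.Growth

/-!
# Seymour's second neighbourhood conjecture
-/

namespace Vale.Agent.P038.H142

set_option linter.unusedSectionVars false

open Finset

variable {V : Type*} [Fintype V] [DecidableEq V]

theorem no_CE [Nonempty V] (N₀ : V → Finset V) (hO₀ : Ori N₀) (hC₀ : CE N₀) : False := by
  classical
  -- a counterexample with the fewest arcs
  obtain ⟨N, hNmem, hNmin⟩ := Finset.exists_min_image
    (univ.filter fun N : V → Finset V => Ori N ∧ CE N) (fun N => ∑ v, (N v).card)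
    ⟨N₀, by simpa using ⟨hO₀, hC₀⟩⟩
  obtain ⟨hO, hC⟩ := (mem_filter.1 hNmem).2
  have hmin : ∀ N' : V → Finset V, Ori N' → CE N' → ∑ v, (N v).card ≤ ∑ v, (N' v).card :=
    fun N' h1 h2 => hNmin N' (by simpa using ⟨h1, h2⟩)
  have hgrow := growth hO hC hmin
  -- an optimal shifted-legal pair
  have hNN : SL N N N :=
    ⟨fun _ => le_refl _, fun _ => le_refl _, fun a v h1 h2 => hO.anti a v h1 h2⟩
  obtain ⟨⟨P, Q⟩, hPQmem, hPQmin⟩ := Finset.exists_min_image
    (univ.filter fun pq : (V → Finset V) × (V → Finset V) => SL N pq.1 pq.2)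
    (fun pq => cost N pq.1 pq.2) ⟨(N, N), by simpa using hNN⟩
  have h : SL N P Q := (mem_filter.1 hPQmem).2
  have hopt : ∀ P' Q', SL N P' Q' → cost N P Q ≤ cost N P' Q' :=
    fun P' Q' h' => hPQmin (P', Q') (by simpa using h')
  have hex := exchange hO.refl h hopt
  have hsh := hopt _ _ (shifted hO.refl h)
  have hle : ∀ S, cc N (nb N S) ≤ cc N S := by
    intro S
    by_cases hS : nb N S = S
    · rw [hS]
    · exact (hgrow S hS).le
  have hX : ∀ a, nb N (meet N P a) = meet N P a := by
    by_contra hcon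
    push Not at hcon
    obtain ⟨a, ha⟩ := hcon
    have h1 : ∑ a, cc N (nb N (meet N P a)) < ∑ a, cc N (meet N P a) :=
      Finset.sum_lt_sum (fun a _ => hle _) ⟨a, mem_univ a, hgrow _ ha⟩
    have h2 : ∑ b, cc N (nb N (meet N Q b)) ≤ ∑ b, cc N (meet N Q b) :=
      Finset.sum_le_sum fun b _ => hle _
    unfold cost at hex hsh
    linarith
  have hY : ∀ b, nb N (meet N Q b) = meet N Q b := by
    by_contra hcon
    push Not at hcon
    obtain ⟨b, hb⟩ := hcon
    have h1 : ∑ b, cc N (nb N (meet N Q b)) < ∑ b, cc N (meet N Q b) :=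
      Finset.sum_lt_sum (fun a _ => hle _) ⟨b, mem_univ b, hgrow _ hb⟩
    have h2 : ∑ a, cc N (nb N (meet N P a)) ≤ ∑ a, cc N (meet N P a) :=
      Finset.sum_le_sum fun b _ => hle _
    unfold cost at hex hsh
    linarith
  -- the closed set generated by a vertex
  set W : V → Finset V := fun a => univ.filter fun x => ∀ S, a ∈ S → nb N S = S → x ∈ S with hW
  have memW : ∀ a x, x ∈ W a ↔ ∀ S, a ∈ S → nb N S = S → x ∈ S := by
    intro a x
    simp [hW]
  have hself : ∀ a, a ∈ W a := fun a => (memW a a).2 fun S hS _ => hS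
  have hdec : ∀ a b, b ∈ N a → b ≠ a → (W b).card < (W a).card := by
    intro a b hb hne
    refine card_lt_card (Finset.ssubset_iff_subset_ne.2 ⟨?_, ?_⟩)
    · intro x hx
      rw [memW] at hx ⊢
      intro S hS hcl
      refine hx S ?_ hcl
      rw [← hcl]
      exact mem_nb.2 ⟨a, hS, hb⟩
    · intro heq
      have h1 : a ∈ W b := by
        rw [heq]
        exact hself a
      have h2 : b ∈ meet N Q b := mem_meet.2 fun b' hb' => h.hQ b' hb'
      have h3 : a ∈ meet N Q b := (memW b a).1 h1 _ h2 (hY b)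
      have h4 : a ∈ meet N P a := mem_meet.2 fun a' ha' => h.hP a' ha'
      exact hne (legal hO.refl h a b (mem_nb.2 ⟨a, h4, hb⟩)
        (subset_nb hO.refl _ h3)).symm
  obtain ⟨a, -, hamin⟩ := Finset.exists_min_image (univ : Finset V) (fun a => (W a).card)
    univ_nonempty
  have hne : ((N a).erase a).Nonempty := by
    rw [← card_pos]
    have := hC a
    omega
  obtain ⟨b, hb⟩ := hne
  rw [mem_erase] at hb
  exact absurd (hamin b (mem_univ b)) (not_le.2 (hdec a b hb.2 hb.1))

/-- **Seymour's second neighbourhood conjecture.** -/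
theorem seymour {V : Type*} [Fintype V] [Nonempty V] (D : OGraph V) :
    ∃ v, (N1 D v).card ≤ (N2 D v).card := by
  classical
  by_contra hcon
  push Not at hcon
  refine no_CE (fun v => insert v (N1 D v)) ⟨?_, ?_⟩ ?_
  · intro v
    exact mem_insert_self _ _
  · intro u v h1 h2
    rcases mem_insert.1 h1 with h1 | h1
    · exact h1.symm
    · rcases mem_insert.1 h2 with h2 | h2
      · exact h2
      · exact absurd (mem_N1.1 h2) (D.asymm _ _ (mem_N1.1 h1))
  · intro v
    have h1 : (insert v (N1 D v)).erase v = N1 D v := by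
      rw [erase_insert]
      rw [mem_N1]
      exact D.loopless v
    simp only [h1]
    have h2 : nb (fun v => insert v (N1 D v)) (N1 D v) ⊆ N1 D v ∪ N2 D v := by
      intro x hx
      obtain ⟨u, hu, hxu⟩ := mem_nb.1 hx
      rw [mem_union]
      rcases mem_insert.1 hxu with h3 | h3
      · rw [h3]
        exact Or.inl hu
      · by_cases h4 : D.arc v x
        · exact Or.inl (mem_N1.2 h4)
        · refine Or.inr (mem_N2.2 ⟨?_, h4, u, mem_N1.1 hu, mem_N1.1 h3⟩)
          rintro rfl
          exact D.asymm _ _ (mem_N1.1 hu) (mem_N1.1 h3)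
    have h3 := card_le_card h2
    have h4 := card_union_le (N1 D v) (N2 D v)
    have h5 := hcon v
    omega

end Vale.Agent.P038.H142
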