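import Vale.Agent.P038.H142.AD

/-!
# The exchange inequality: summing over the thresholds
-/

namespace Vale.Agent.P038.H142

set_option linter.unusedSectionVars false

open Finset

variable {V : Type*} [Fintype V] [DecidableEq V]

variable {N P Q : V → Finset V}

/-- upper envelope: minimisers over `[A, B]` for the parameters `0, …, T`. -/
theorem env_upper {K : ℕ} {A B : Finset V} (Z : ℕ → Finset V) (hZ1 : ∀ k, A ⊆ Z k)
    (hZ2 : ∀ k, Z k ⊆ B)
    (hZ : ∀ k U', A ⊆ U' → U' ⊆ B → gg N K k (Z k) ≤ gg N K k U') (hAB : A ⊆ B) (T : ℕ)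
    (hT : T ≤ K) :
    ∑ j ∈ range T, ((nb N (Z (j + 1))).card : ℤ) ≤ K * cc N A + K * B.card := by
  have h1 : ∀ t : ℕ, ∑ j ∈ range t, ((nb N (Z (j + 1))).card : ℤ) ≤
      gg N K t (Z t) - gg N K 0 (Z 0) := by
    intro t
    induction t with
    | zero => simp
    | succ t ih =>
      rw [Finset.sum_range_succ]
      have h2 := hZ t (Z (t + 1)) (hZ1 _) (hZ2 _)
      have h3 : gg N K (t + 1) (Z (t + 1)) =
          gg N K t (Z (t + 1)) + ((nb N (Z (t + 1))).card : ℤ) := by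
        unfold gg
        push_cast
        ring
      linarith
  have h2 := h1 T
  have h3 := hZ T A (le_refl _) hAB
  have h4 : gg N K T A ≤ K * cc N A := by
    unfold gg cc
    have h5 : (T : ℤ) * (nb N A).card ≤ K * (nb N A).card :=
      mul_le_mul_of_nonneg_right (by exact_mod_cast hT) (by positivity)
    linarith
  have h5 : -((K : ℤ) * B.card) ≤ gg N K 0 (Z 0) := by
    unfold gg
    have h6 : (K : ℤ) * (Z 0).card ≤ K * B.card :=
      mul_le_mul_of_nonneg_left (by exact_mod_cast card_le_card (hZ2 0)) (by positivity)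
    push_cast
    linarith
  linarith

/-- lower envelope. -/
theorem env_lower {K : ℕ} {A B : Finset V} (Z : ℕ → Finset V) (hZ1 : ∀ k, A ⊆ Z k)
    (hZ2 : ∀ k, Z k ⊆ B)
    (hZ : ∀ k U', A ⊆ U' → U' ⊆ B → gg N K k (Z k) ≤ gg N K k U') (hAB : A ⊆ B) (T : ℕ)
    (hT : K ≤ T + 2) (hA : ∀ U, A ⊆ U → U ⊆ B → cc N A ≤ cc N U) :
    K * cc N A + K * B.card - 2 * (Fintype.card V : ℤ) ≤
      ∑ j ∈ range T, ((nb N (Z (j + 2))).card : ℤ) := by
  have h1 : ∀ t : ℕ, gg N K (t + 2) (Z (t + 2)) - gg N K 2 (Z 2) ≤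
      ∑ j ∈ range t, ((nb N (Z (j + 2))).card : ℤ) := by
    intro t
    induction t with
    | zero => simp
    | succ t ih =>
      rw [Finset.sum_range_succ]
      have h2 := hZ (t + 1 + 2) (Z (t + 2)) (hZ1 _) (hZ2 _)
      have h3 : gg N K (t + 1 + 2) (Z (t + 2)) =
          gg N K (t + 2) (Z (t + 2)) + ((nb N (Z (t + 2))).card : ℤ) := by
        unfold gg
        push_cast
        ring
      linarith
  have h2 := h1 T
  have h3 := hA (Z (T + 2)) (hZ1 _) (hZ2 _)
  have h4 : (K : ℤ) * cc N A ≤ gg N K (T + 2) (Z (T + 2)) := by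
    have h5 : (K : ℤ) * cc N A ≤ K * cc N (Z (T + 2)) :=
      mul_le_mul_of_nonneg_left h3 (by positivity)
    have h6 : (K : ℤ) * (nb N (Z (T + 2))).card ≤ ((T + 2 : ℕ) : ℤ) * (nb N (Z (T + 2))).card :=
      mul_le_mul_of_nonneg_right (by exact_mod_cast hT) (by positivity)
    unfold gg
    unfold cc at h5 ⊢
    linarith
  have h5 := hZ 2 B hAB (le_refl _)
  have h6 : gg N K 2 B ≤ 2 * (Fintype.card V : ℤ) - K * B.card := by
    unfold gg
    have h7 : ((nb N B).card : ℤ) ≤ Fintype.card V := by exact_mod_cast card_le_univ _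
    push_cast
    linarith
  linarith

/-- **The exchange inequality**: at an optimal shifted-legal pair the two families of
intersections over closed in-neighbourhoods cost at most as much. -/
theorem exchange (hN : ∀ v, v ∈ N v) (h : SL N P Q)
    (hopt : ∀ P' Q', SL N P' Q' → cost N P Q ≤ cost N P' Q') :
    cost N (meet N P) (meet N Q) ≤ cost N P Q := by
  classical
  set n : ℕ := Fintype.card V with hn
  set T : ℕ := 3 * n ^ 2 with hTdef
  set K : ℕ := T + 1 with hKdef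
  -- minimisers for the rows
  have hex1 : ∀ (k : ℕ) (a : V), ∃ U, P a ⊆ U ∧ U ⊆ rg Q a ∧
      ∀ U', P a ⊆ U' → U' ⊆ rg Q a → gg N K k U ≤ gg N K k U' :=
    fun k a => exists_gg_min N K k (h.sub_rg a)
  choose Z hZ1 hZ2 hZ using hex1
  have hXX : ∀ a, meet N P a ⊆ meet N (rg Q) a := by
    intro a x hx
    rw [mem_meet] at hx ⊢
    intro a' ha'
    exact h.sub_rg a' (hx a' ha')
  have hex2 : ∀ (k : ℕ) (a : V), ∃ U, meet N P a ⊆ U ∧ U ⊆ meet N (rg Q) a ∧
      ∀ U', meet N P a ⊆ U' → U' ⊆ meet N (rg Q) a → gg N K k U ≤ gg N K k U' :=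
    fun k a => exists_gg_min N K k (hXX a)
  choose M hM1 hM2 hM using hex2
  have hK0 : 0 < K := Nat.succ_pos _
  have hmono : ∀ (k : ℕ) (a a' : V), a ∈ N a' → M (k + 1) a ⊆ Z k a' := by
    intro k a a' ha
    have hr : M (k + 1) a ⊆ rg Q a' := fun x hx => mem_meet.1 (hM2 _ a hx) a' ha
    have hp : meet N P a ⊆ P a' := fun x hx => mem_meet.1 hx a' ha
    refine gg_mono_param (N := N) hK0 (Nat.lt_succ_self k) ?_ ?_
    · exact hZ k a' _ ((hZ1 k a').trans subset_union_right) (union_subset hr (hZ2 k a'))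
    · exact hM (k + 1) a _ (subset_inter (hM1 _ a) (hp.trans (hZ1 k a')))
        (inter_subset_left.trans (hM2 _ a))
  -- the levels
  have hlev : ∀ k : ℕ, ∑ b, cc N (meet N Q b) ≤
      (∑ a, ((nb N (Z k a)).card : ℤ)) - ∑ a, ((nb N (M (k + 1) a)).card : ℤ) :=
    fun k => level hN h hopt (Z k) (M (k + 1)) (hZ1 k) (hZ2 k) (hmono k)
  have hsum : (T : ℤ) * ∑ b, cc N (meet N Q b) ≤
      ∑ a, (∑ j ∈ range T, ((nb N (Z (j + 1) a)).card : ℤ)) -
        ∑ a, ∑ j ∈ range T, ((nb N (M (j + 2) a)).card : ℤ) := by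
    have h1 : ∑ j ∈ range T, ∑ b, cc N (meet N Q b) ≤ ∑ j ∈ range T,
        ((∑ a, ((nb N (Z (j + 1) a)).card : ℤ)) - ∑ a, ((nb N (M (j + 2) a)).card : ℤ)) :=
      Finset.sum_le_sum fun j _ => hlev (j + 1)
    rw [Finset.sum_const, card_range, nsmul_eq_mul, Finset.sum_sub_distrib] at h1
    rw [Finset.sum_comm (s := range T), Finset.sum_comm (s := range T)] at h1
    exact h1
  have hup : ∀ a, ∑ j ∈ range T, ((nb N (Z (j + 1) a)).card : ℤ) ≤
      K * cc N (P a) + K * (rg Q a).card := fun a =>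
    env_upper (fun k => Z k a) (fun k => hZ1 k a) (fun k => hZ2 k a) (fun k => hZ k a)
      (h.sub_rg a) T (Nat.le_succ T)
  have hlow : ∀ a, K * cc N (meet N P a) + K * (meet N (rg Q) a).card - 2 * (n : ℤ) ≤
      ∑ j ∈ range T, ((nb N (M (j + 2) a)).card : ℤ) := fun a =>
    env_lower (fun k => M k a) (fun k => hM1 k a) (fun k => hM2 k a) (fun k => hM k a)
      (hXX a) T (by omega) (fun U h1 h2 => meet_opt (row_opt h hopt) h.sub_rg a U h1 h2)
  have hup' := Finset.sum_le_sum fun a (_ : a ∈ (univ : Finset V)) => hup a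
  have hlow' := Finset.sum_le_sum fun a (_ : a ∈ (univ : Finset V)) => hlow a
  rw [Finset.sum_add_distrib, ← Finset.mul_sum, ← Finset.mul_sum] at hup'
  rw [Finset.sum_sub_distrib, Finset.sum_add_distrib, ← Finset.mul_sum, ← Finset.mul_sum,
    Finset.sum_const, card_univ, nsmul_eq_mul] at hlow'
  -- the ranges against `Q`
  have hR1 : (∑ a, ((rg Q a).card : ℤ)) + ∑ b, ((Q b).card : ℤ) ≤
      (Fintype.card V : ℤ) ^ 2 + Fintype.card V := by
    refine pair_le _ _ ?_
    intro a b hb ha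
    rcases mem_rg.1 hb with h1 | h1
    · exact h1.symm
    · exact absurd ha h1
  have hR2 : (Fintype.card V : ℤ) ^ 2 + Fintype.card V ≤
      (∑ a, ((meet N (rg Q) a).card : ℤ)) + ∑ b, ((nb N (Q b)).card : ℤ) := by
    have h2 := pair_ge (fun b => nb N (Q b)) (meet N (rg Q)) ?_ ?_
    · linarith
    · intro b a ha
      rw [mem_meet]
      intro a' ha'
      rw [mem_rg]
      refine Or.inr fun h3 => ha ?_
      exact mem_nb.2 ⟨a', h3, ha'⟩
    · intro a
      refine ⟨subset_nb hN _ (h.hQ a (hN a)), ?_⟩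
      rw [mem_meet]
      intro a' ha'
      rw [mem_rg]
      by_cases h3 : a' ∈ Q a
      · exact Or.inl (h.leg a' a (h.hP a' ha') h3).symm
      · exact Or.inr h3
  have hQsum : ∑ b, cc N (Q b) = ∑ b, ((nb N (Q b)).card : ℤ) - ∑ b, ((Q b).card : ℤ) := by
    unfold cc
    rw [Finset.sum_sub_distrib]
  have hYle : ∑ b, cc N (meet N Q b) ≤ (n : ℤ) * n := by
    have h1 : ∑ b, cc N (meet N Q b) ≤ ∑ _b : V, (n : ℤ) :=
      Finset.sum_le_sum fun b _ => cc_le _
    rwa [Finset.sum_const, card_univ, nsmul_eq_mul] at h1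
  -- conclusion
  set SX : ℤ := ∑ a, cc N (meet N P a) with hSX
  set SY : ℤ := ∑ b, cc N (meet N Q b) with hSY
  set SP : ℤ := ∑ a, cc N (P a) with hSP
  set SQ : ℤ := ∑ b, cc N (Q b) with hSQ
  set RR : ℤ := ∑ a, ((rg Q a).card : ℤ) with hRR
  set MM : ℤ := ∑ a, ((meet N (rg Q) a).card : ℤ) with hMM
  have hRM : RR - MM ≤ SQ := by linarith
  have hKc : (K : ℤ) = T + 1 := by rw [hKdef]; push_cast; ring
  have hTc : (T : ℤ) = 3 * (n : ℤ) ^ 2 := by rw [hTdef]; push_cast; ring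
  have hKpos : (0 : ℤ) < K := by exact_mod_cast hK0
  have hfin : (K : ℤ) * (SX + SY - SP - SQ) ≤ 3 * (n : ℤ) ^ 2 := by
    have h1 : (K : ℤ) * (RR - MM) ≤ K * SQ := mul_le_mul_of_nonneg_left hRM hKpos.le
    have h2 : (T : ℤ) * SY = K * SY - SY := by rw [hKc]; ring
    have h3 : (K : ℤ) * (RR - MM) = K * RR - K * MM := by ring
    have h4 : (n : ℤ) * (2 * n) = 2 * (n : ℤ) ^ 2 := by ring
    have h5 : (n : ℤ) * n = (n : ℤ) ^ 2 := by ring
    have h6 : (K : ℤ) * (SX + SY - SP - SQ) = K * SX + K * SY - K * SP - K * SQ := by ring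
    rw [h2] at hsum
    linarith
  have hlast : SX + SY - SP - SQ ≤ 0 := by
    by_contra hcon
    push Not at hcon
    have h1 : (1 : ℤ) ≤ SX + SY - SP - SQ := by omega
    have h2 : (K : ℤ) * 1 ≤ K * (SX + SY - SP - SQ) := mul_le_mul_of_nonneg_left h1 hKpos.le
    linarith
  unfold cost
  linarith

/-- the intersections form a legal pair. -/
theorem legal (hN : ∀ v, v ∈ N v) (h : SL N P Q) (a b : V) (hb : b ∈ nb N (meet N P a))
    (ha : a ∈ nb N (meet N Q b)) : a = b := by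
  by_contra hab
  obtain ⟨x, hx, hxb⟩ := mem_nb.1 hb
  obtain ⟨y, hy, hya⟩ := mem_nb.1 ha
  have h1 : x ∈ P y := mem_meet.1 hx y hya
  have h2 : y ∈ Q x := mem_meet.1 hy x hxb
  have h3 : y = x := h.leg y x h1 h2
  subst h3
  have h4 : a = y := h.leg a y (mem_meet.1 hx a (hN a)) (h.hQ y hya)
  have h5 : y = b := h.leg y b (h.hP y hxb) (mem_meet.1 hy b (hN b))
  exact hab (h4.trans h5)

/-- so their closed neighbourhoods form a shifted-legal pair again. -/
theorem shifted (hN : ∀ v, v ∈ N v) (h : SL N P Q) :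
    SL N (fun a => nb N (meet N P a)) (fun b => nb N (meet N Q b)) := by
  refine ⟨?_, ?_, ?_⟩
  · intro a x hx
    refine mem_nb.2 ⟨a, mem_meet.2 fun a' ha' => h.hP a' ha', hx⟩
  · intro a x hx
    refine mem_nb.2 ⟨a, mem_meet.2 fun a' ha' => h.hQ a' ha', hx⟩
  · intro a v hv ha
    exact legal hN h a v hv ha

end Vale.Agent.P038.H142
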